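import Crest.Prelude.Def_GraphRAM

/-! Realizes equation lemmas once, so that no two files of the library generate them separately. -/

private theorem rz_3dde2514ce : type_of% @_root_.Crest.GraphRAM.pairsOf.eq_def := @_root_.Crest.GraphRAM.pairsOf.eq_def
private theorem rz_bc6a724636 : type_of% @_root_.Crest.GraphRAM.pairsOf.eq_1 := @_root_.Crest.GraphRAM.pairsOf.eq_1
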