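import Crest.Prelude.Def_PTS

/-! Realizes equation lemmas once, so that no two files of the library generate them separately. -/

private theorem rz_2af5053a9e : type_of% @_root_.Crest.LogicCS.PTS.Term.shift.eq_def := @_root_.Crest.LogicCS.PTS.Term.shift.eq_def
private theorem rz_44e13daf36 : type_of% @_root_.Crest.LogicCS.PTS.Term.shift.eq_1 := @_root_.Crest.LogicCS.PTS.Term.shift.eq_1
private theorem rz_f32f711384 : type_of% @_root_.Crest.LogicCS.PTS.Term.shiftBy.eq_def := @_root_.Crest.LogicCS.PTS.Term.shiftBy.eq_def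
private theorem rz_33f93d4f53 : type_of% @_root_.Crest.LogicCS.PTS.Term.shiftBy.eq_1 := @_root_.Crest.LogicCS.PTS.Term.shiftBy.eq_1
private theorem rz_e355f051b0 : type_of% @_root_.Crest.LogicCS.PTS.Term.substAt.eq_def := @_root_.Crest.LogicCS.PTS.Term.substAt.eq_def
private theorem rz_cb9f711e26 : type_of% @_root_.Crest.LogicCS.PTS.Term.substAt.eq_1 := @_root_.Crest.LogicCS.PTS.Term.substAt.eq_1
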